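import Vale.Agent.Lib.P099.Basic

namespace Vale.Agent.Results.P099.DirectionSets

open MeasureTheory Vale.Agent.Lib.P099

/-- In every irrational triangle, an invariant (mod null sets) measurable set of the form
`Q × B`, with `B` a set of directions, has Liouville measure `0` or `1`. -/
theorem result (P : Fin 3 → ℂ) (hP : AffineIndependent ℝ P) (hirr : ¬ IsRational P)
    (B : Set UnitAddCircle) (hB : MeasurableSet B) (hinv : IsInvariant P (table P ×ˢ B)) :
    liouville P (table P ×ˢ B) = 0 ∨ liouville P (table P ×ˢ B) = 1 := by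
  unfold IsRational at hirr
  push Not at hirr
  obtain ⟨i, hi⟩ := hirr
  have hord : addOrderOf (vertexRot P i) = 0 := by
    apply addOrderOf_vertexRot P hP i
    rintro ⟨q, hq⟩
    exact hi q hq
  have herg : Ergodic (fun x => vertexRot P i + x) (volume : Measure UnitAddCircle) :=
    AddCircle.ergodic_add_left.mpr hord
  have h1 := ae_sideRefl P hP B hB hinv i
  have h2 := ae_sideRefl P hP B hB hinv (i + 2)
  have h3 : volume (sideRefl P (i + 2) ⁻¹' {θ | ¬ (sideRefl P i θ ∈ B ↔ θ ∈ B)}) = 0 :=
    (measurePreserving_sideRefl P (i + 2)).quasiMeasurePreserving.preimage_null h1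
  have hae : (fun x => vertexRot P i + x) ⁻¹' B =ᵐ[volume] B := by
    have hnull : volume ({θ | ¬ (sideRefl P (i + 2) θ ∈ B ↔ θ ∈ B)} ∪
        sideRefl P (i + 2) ⁻¹' {θ | ¬ (sideRefl P i θ ∈ B ↔ θ ∈ B)}) = 0 :=
      measure_union_null h2 h3
    have hall : ∀ᵐ θ ∂(volume : Measure UnitAddCircle),
        θ ∉ ({θ | ¬ (sideRefl P (i + 2) θ ∈ B ↔ θ ∈ B)} ∪
        sideRefl P (i + 2) ⁻¹' {θ | ¬ (sideRefl P i θ ∈ B ↔ θ ∈ B)}) :=
      measure_eq_zero_iff_ae_notMem.mp hnull
    filter_upwards [hall] with θ hθ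
    simp only [Set.mem_union, Set.mem_ofPred_eq, Set.mem_preimage, not_or, not_not] at hθ
    have : (vertexRot P i + θ ∈ B) = (θ ∈ B) := by
      rw [← sideRefl_comp, hθ.2, hθ.1]
    exact this
  have hmeas : liouville P (table P ×ˢ B) = volume B := by
    unfold liouville
    rw [Measure.smul_apply, Measure.prod_prod, Measure.restrict_apply_self, smul_eq_mul, ← mul_assoc,
      ENNReal.inv_mul_cancel (volume_table_ne_zero P hP) (volume_table_ne_top P), one_mul]
  rw [hmeas]
  rcases herg.quasiErgodic.ae_empty_or_univ₀ hB.nullMeasurableSet hae with h | h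
  · left
    rw [measure_congr h]; simp
  · right
    rw [measure_congr h]; simp

end Vale.Agent.Results.P099.DirectionSets
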