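import Vale.Agent.Results.P099.ContinuousIntegrals
import Vale.Agent.Results.P099.DirectionSets

namespace Vale.Agent.Results.P099.A_Combined

open MeasureTheory Vale.Agent.Lib.P099

/-- (1) In a triangle all of whose angles are irrational multiples of `π`, every continuous function
on the phase space `Q × S¹` that is invariant under the billiard flow is constant.
(2) In every irrational triangle, an invariant (mod null sets) measurable set of the form `Q × B`,
with `B` a set of directions, has Liouville measure `0` or `1`. -/
theorem result :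
    (∀ (P : Fin 3 → ℂ), AffineIndependent ℝ P →
      (∀ i : Fin 3, ¬ ∃ q : ℚ,
        EuclideanGeometry.angle (P (i + 1)) (P i) (P (i + 2)) = q * Real.pi) →
      ∀ (f : ℂ × UnitAddCircle → ℝ), ContinuousOn f (table P ×ˢ Set.univ) →
      (∀ (t : ℝ) (z w : ℂ × UnitAddCircle), Flow P t z w → f w = f z) →
      ∃ k : ℝ, ∀ z ∈ table P ×ˢ (Set.univ : Set UnitAddCircle), f z = k) ∧
    (∀ (P : Fin 3 → ℂ), AffineIndependent ℝ P → ¬ IsRational P →
      ∀ (B : Set UnitAddCircle), MeasurableSet B → IsInvariant P (table P ×ˢ B) →
      liouville P (table P ×ˢ B) = 0 ∨ liouville P (table P ×ˢ B) = 1) :=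
  ⟨fun P hP hirr f hf hinv => ContinuousIntegrals.result P hP hirr f hf hinv,
    fun P hP hirr B hB hinv => DirectionSets.result P hP hirr B hB hinv⟩

end Vale.Agent.Results.P099.A_Combined
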