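import Vale.Agent.Lib.P099.Main

namespace Vale.Agent.Results.P099.ContinuousIntegrals

open Vale.Agent.Lib.P099

/-- In a triangle all of whose angles are irrational multiples of `π`, every continuous function
on the phase space `Q × S¹` that is invariant under the billiard flow is constant. -/
theorem result (P : Fin 3 → ℂ) (hP : AffineIndependent ℝ P)
    (hirr : ∀ i : Fin 3, ¬ ∃ q : ℚ,
      EuclideanGeometry.angle (P (i + 1)) (P i) (P (i + 2)) = q * Real.pi)
    (f : ℂ × UnitAddCircle → ℝ) (hf : ContinuousOn f (table P ×ˢ Set.univ))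
    (hinv : ∀ (t : ℝ) (z w : ℂ × UnitAddCircle), Flow P t z w → f w = f z) :
    ∃ k : ℝ, ∀ z ∈ table P ×ˢ (Set.univ : Set UnitAddCircle), f z = k :=
  continuous_integral_const P hP hirr f hf hinv

end Vale.Agent.Results.P099.ContinuousIntegrals
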